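import Mathlib
import Vale.Agent.Lib.P248.helper1.ConeDefs
import Vale.Agent.Lib.P248.helper1.ConeMain
import Vale.Agent.Lib.P248.helper1.ConeSym
import Vale.Agent.Lib.P248.helper37.Q2Main
import Vale.Agent.Lib.P248.helper55.ABFinal

/-!
# P248: lower bounds for the volume product in three classes of convex bodies

One statement that collects the results of the other hand-ins of this problem on classes of
bodies defined by coordinatewise monotonicity.  `P(S)` is the volume product of the general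
Mahler conjecture, the infimum over the interior points `z` of `S` of `|S| |(S - z)°|`.

* (A) A compact convex `K ⊆ ℝⁿ` with the origin in its interior which is locally anti-blocking
  (each orthant piece is down-closed towards the origin) satisfies `|K| |K°| ≥ 4ⁿ / n!`.
* (B) A compact convex `A` in the closed positive orthant which is down-closed there (an
  anti-blocking body) satisfies `|A| |(A - z)°| ≥ (n+1)ⁿ⁺¹ / (n!)²` for every interior point
  `z`, hence `P(A) ≥ (n+1)ⁿ⁺¹ / (n!)²`.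
* (C) The cone `K ⊆ ℝⁿ⁺¹` over a compact `D ⊆ ℝⁿ` satisfies
  `P(K) = ((n+2)ⁿ⁺² / (n+1)ⁿ⁺³) P(D)`, so `P(D) ≥ (n+1)ⁿ⁺¹ / (n!)²` gives
  `P(K) ≥ (n+2)ⁿ⁺² / ((n+1)!)²`; and this last bound holds whenever `D` is convex,
  origin-symmetric, locally anti-blocking and has the origin in its interior.
-/

namespace Vale.Agent.Results.P248.AntiBlockingAndCones

open MeasureTheory
open Vale.Agent.Lib.P248.H1

theorem result (n : ℕ) :
    (∀ K : Set (EuclideanSpace ℝ (Fin n)), Convex ℝ K → IsCompact K →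
        (0 : EuclideanSpace ℝ (Fin n)) ∈ interior K →
        (∀ x ∈ K, ∀ y : EuclideanSpace ℝ (Fin n),
          (∀ i, 0 ≤ x i * y i ∧ |y i| ≤ |x i|) → y ∈ K) →
        ENNReal.ofReal (4 ^ n / (n.factorial : ℝ)) ≤
          volume K * volume {y : EuclideanSpace ℝ (Fin n) | ∀ x ∈ K, inner ℝ x y ≤ 1}) ∧
      (∀ A : Set (EuclideanSpace ℝ (Fin n)), Convex ℝ A → IsCompact A →
        (∀ x ∈ A, ∀ i, 0 ≤ x i) →
        (∀ x ∈ A, ∀ y : EuclideanSpace ℝ (Fin n), (∀ i, 0 ≤ y i ∧ y i ≤ x i) → y ∈ A) →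
        (∀ z ∈ interior A,
            ENNReal.ofReal (((n : ℝ) + 1) ^ (n + 1) / (n.factorial : ℝ) ^ 2) ≤
              volume A * volume (polarAt A z)) ∧
          ENNReal.ofReal (((n : ℝ) + 1) ^ (n + 1) / (n.factorial : ℝ) ^ 2) ≤ volProd A) ∧
      (∀ D : Set (EuclideanSpace ℝ (Fin n)), IsCompact D →
        ∀ (c : EuclideanSpace ℝ (Fin n)) (h : ℝ), 0 < h →
        volProd (cone D c h) =
            ENNReal.ofReal ((n + 2 : ℝ) ^ (n + 2) / (n + 1 : ℝ) ^ (n + 3)) * volProd D ∧
          (ENNReal.ofReal ((n + 1 : ℝ) ^ (n + 1) / (n.factorial : ℝ) ^ 2) ≤ volProd D →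
            ENNReal.ofReal ((n + 2 : ℝ) ^ (n + 2) / ((n + 1).factorial : ℝ) ^ 2) ≤
              volProd (cone D c h)) ∧
          (Convex ℝ D → (0 : EuclideanSpace ℝ (Fin n)) ∈ interior D → (∀ x ∈ D, -x ∈ D) →
            (∀ x ∈ D, ∀ y : EuclideanSpace ℝ (Fin n),
              (∀ i, 0 ≤ x i * y i ∧ |y i| ≤ |x i|) → y ∈ D) →
            ENNReal.ofReal ((n + 2 : ℝ) ^ (n + 2) / ((n + 1).factorial : ℝ) ^ 2) ≤
              volProd (cone D c h))) := by
  refine ⟨?_, ?_, ?_⟩
  · intro K hconv hcomp h0 hLAB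
    exact Vale.Agent.Lib.P248.H55.locally_anti_blocking hconv hcomp h0 hLAB
  · intro A hconv hcomp hnn hdown
    have h1 : ∀ z ∈ interior A,
        ENNReal.ofReal (((n : ℝ) + 1) ^ (n + 1) / (n.factorial : ℝ) ^ 2) ≤
          volume A * volume (polarAt A z) := fun z hz =>
      Vale.Agent.Lib.P248.H37Q.Hub.q2_euclid
        (fun A' z' h' => Vale.Agent.Lib.P248.H37Q.q2_pi A' z' h') A hconv hcomp hnn hdown z hz
    exact ⟨h1, le_iInf₂ h1⟩
  · intro D hD c h hh
    exact ⟨cone_volProd_eq D hD c h hh, cone_volProd_cond D hD c h hh,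
      fun hconv h0 hsymm hLAB => cone_volProd_sym_lab D hD c h hh hconv h0 hsymm hLAB⟩

end Vale.Agent.Results.P248.AntiBlockingAndCones
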