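import Mathlib
import Vale.Agent.Lib.P248.helper1.ConeDefs
import Vale.Agent.Lib.P248.helper37.Q2Main

/-!
# P248: the inequality of Q2 for anti-blocking bodies, about every interior point

`A` is a compact convex subset of the closed positive orthant of `R^n` which is down-closed
there (with `x` it contains every `y` with `0 ≤ y_i ≤ x_i`): an anti-blocking body.  Then for
every interior point `z` of `A`
`(n+1)^(n+1) / (n!)^2 ≤ |A| * |(A - z)°|`,
hence `(n+1)^(n+1) / (n!)^2 ≤ P(A)`, the inequality of Q2.  The simplex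
`{x ≥ 0, x_1 + … + x_n ≤ 1}` is such a body.
-/

namespace Vale.Agent.Results.P248.AntiBlockingQ2

open MeasureTheory
open Vale.Agent.Lib.P248.H1

theorem result (n : ℕ) (A : Set (EuclideanSpace ℝ (Fin n))) (hconv : Convex ℝ A)
    (hcomp : IsCompact A) (hnn : ∀ x ∈ A, ∀ i, 0 ≤ x i)
    (hdown : ∀ x ∈ A, ∀ y : EuclideanSpace ℝ (Fin n), (∀ i, 0 ≤ y i ∧ y i ≤ x i) → y ∈ A) :
    (∀ z ∈ interior A,
        ENNReal.ofReal (((n : ℝ) + 1) ^ (n + 1) / (n.factorial : ℝ) ^ 2) ≤
          volume A * volume (polarAt A z)) ∧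
      ENNReal.ofReal (((n : ℝ) + 1) ^ (n + 1) / (n.factorial : ℝ) ^ 2) ≤ volProd A := by
  have h1 : ∀ z ∈ interior A,
      ENNReal.ofReal (((n : ℝ) + 1) ^ (n + 1) / (n.factorial : ℝ) ^ 2) ≤
        volume A * volume (polarAt A z) := fun z hz =>
    Vale.Agent.Lib.P248.H37Q.Hub.q2_euclid
      (fun A' z' h' => Vale.Agent.Lib.P248.H37Q.q2_pi A' z' h') A hconv hcomp hnn hdown z hz
  exact ⟨h1, le_iInf₂ h1⟩

end Vale.Agent.Results.P248.AntiBlockingQ2
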