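import Mathlib
import Vale.Agent.Lib.P248.helper20.ProfileBody

/-!
# P248: the volume product of bodies with dilated parallel sections

Let `A ⊆ ℝⁿ` contain `0` in its interior, let `a` be concave, non-increasing and non-negative
on `[0, h]` with `a 0 > 0`, and let `K ⊆ ℝ × ℝⁿ` be the set of all points `(t, a |t| • w)`
with `|t| ≤ h` and `w ∈ A` (every section of `K` parallel to the hyperplane `t = 0` is a
dilate of `A`).  Then `|K| |K°| ≥ 4 / (n + 1) * |A| |A°|`, and therefore the lower bound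
`4ⁿ / n!` of the symmetric Mahler conjecture for `A` gives the bound `4ⁿ⁺¹ / (n + 1)!` for `K`.
-/

namespace Vale.Agent.Results.P248.HomotheticSectionsBound

open MeasureTheory
open scoped Pointwise
open Vale.Agent.Lib.P227 Vale.Agent.Lib.P248.H20

theorem result (n : ℕ) (A : Set (EuclideanSpace ℝ (Fin n)))
    (K : Set (EuclideanSpace ℝ (Fin (n + 1)))) (h : ℝ) (a : ℝ → ℝ)
    (hA : (0 : EuclideanSpace ℝ (Fin n)) ∈ interior A) (hK : MeasurableSet K) (hh : 0 < h)
    (hconc : ConcaveOn ℝ (Set.Icc 0 h) a) (hanti : AntitoneOn a (Set.Icc 0 h))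
    (hnn : ∀ t ∈ Set.Icc 0 h, 0 ≤ a t) (ha0 : 0 < a 0)
    (hsec : ∀ x : EuclideanSpace ℝ (Fin (n + 1)),
      x ∈ K ↔ |x 0| ≤ h ∧ ∃ w ∈ A, ∀ i : Fin n, x i.succ = a |x 0| * w i) :
    ENNReal.ofReal (4 / ((n : ℝ) + 1)) *
          (volume A * volume {y : EuclideanSpace ℝ (Fin n) | ∀ x ∈ A, inner ℝ x y ≤ 1})
        ≤ volume K * volume {y : EuclideanSpace ℝ (Fin (n + 1)) | ∀ x ∈ K, inner ℝ x y ≤ 1} ∧
      (ENNReal.ofReal (4 ^ n / (n.factorial : ℝ))
          ≤ volume A * volume {y : EuclideanSpace ℝ (Fin n) | ∀ x ∈ A, inner ℝ x y ≤ 1} →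
        ENNReal.ofReal (4 ^ (n + 1) / ((n + 1).factorial : ℝ))
          ≤ volume K *
            volume {y : EuclideanSpace ℝ (Fin (n + 1)) | ∀ x ∈ K, inner ℝ x y ≤ 1}) := by
  have h1 : ∀ t : ℝ, |t| ≤ h → sec t K = a |t| • A := by
    intro t ht
    ext w
    constructor
    · intro hw
      have hx := (hsec (ecomb t w)).1 hw
      rw [ecomb_zero] at hx
      obtain ⟨_, w0, hw0, hi⟩ := hx
      refine ⟨w0, hw0, ?_⟩
      ext i
      have := hi i
      rw [ecomb_succ] at this
      simp [this]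
    · rintro ⟨w0, hw0, rfl⟩
      refine (hsec _).2 ?_
      rw [ecomb_zero]
      exact ⟨ht, w0, hw0, fun i => by rw [ecomb_succ]; simp⟩
  have h2 : ∀ t : ℝ, h < |t| → sec t K = ∅ := by
    intro t ht
    ext w
    simp only [Set.mem_empty_iff_false, iff_false]
    intro hw
    have hx := (hsec (ecomb t w)).1 hw
    rw [ecomb_zero] at hx
    exact absurd hx.1 (not_le.2 ht)
  have main : ENNReal.ofReal (4 / ((n : ℝ) + 1)) * (volume A * volume (polarSet A))
      ≤ volume K * volume (polarSet K) :=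
    profile_body hA hK hh hconc hanti hnn ha0 h1 h2
  refine ⟨main, fun hAm => ?_⟩
  have e : ENNReal.ofReal (4 ^ (n + 1) / ((n + 1).factorial : ℝ))
      = ENNReal.ofReal (4 / ((n : ℝ) + 1)) * ENNReal.ofReal (4 ^ n / (n.factorial : ℝ)) := by
    rw [← ENNReal.ofReal_mul (by positivity)]
    congr 1
    rw [Nat.factorial_succ]
    push_cast
    field_simp
    ring
  rw [e]
  refine le_trans ?_ main
  gcongr
  exact hAm

end Vale.Agent.Results.P248.HomotheticSectionsBound
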