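import Mathlib
import Vale.Agent.Lib.P248.helper55.ABFinal

/-!
# P248: the volume product of locally anti-blocking convex bodies

A compact convex set `K ⊆ ℝⁿ` with the origin in its interior is locally anti-blocking if, for
every `x ∈ K`, every `y` whose coordinates have the same signs as those of `x` (`0 ≤ x i * y i`)
and are no larger in absolute value (`|y i| ≤ |x i|`) lies in `K`; that is, each orthant piece of
`K` is down-closed towards the origin.  Every unconditional convex body is of this kind.  For
such `K` the volume product satisfies `|K| |K°| ≥ 4ⁿ / n!`, the bound of the symmetric Mahler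
conjecture.
-/

namespace Vale.Agent.Results.P248.LocallyAntiBlocking

open MeasureTheory

theorem result (n : ℕ) (K : Set (EuclideanSpace ℝ (Fin n)))
    (hconv : Convex ℝ K) (hcomp : IsCompact K)
    (h0 : (0 : EuclideanSpace ℝ (Fin n)) ∈ interior K)
    (hLAB : ∀ x ∈ K, ∀ y : EuclideanSpace ℝ (Fin n),
      (∀ i, 0 ≤ x i * y i ∧ |y i| ≤ |x i|) → y ∈ K) :
    ENNReal.ofReal (4 ^ n / (n.factorial : ℝ)) ≤
      volume K * volume {y : EuclideanSpace ℝ (Fin n) | ∀ x ∈ K, inner ℝ x y ≤ 1} :=
  Vale.Agent.Lib.P248.H55.locally_anti_blocking hconv hcomp h0 hLAB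

end Vale.Agent.Results.P248.LocallyAntiBlocking
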